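import Vale.Agent.P240.R2.H32.D

/-!
The sum over the forms of discriminant `1` through a frame.
-/

set_option autoImplicit false
set_option linter.all false

namespace Vale.Agent.P240.R2.H32.O25

open Matrix Vale.Agent.P240.R2.AS Vale.Agent.P240.R2.H38 Vale.Agent.P240.R2.H584
open Vale.Agent.P240.R2.H401.E (Ftw)
open Vale.Agent.P240.R2.H296.O (SOm mem_SOm ab ab_rf ab_gmap)
open Vale.Agent.P240.R2.H387 (hf)
open Vale.Agent.P240.H138.O25
open scoped Classical

universe u v w

noncomputable section

section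
variable {K : Type u} [Field K] [Fintype K] [StarRing K] {n : ℕ} {σ : K ≃+* K} {ρ : K}

/-- the product of the signs -/
lemma sB_prod (l : List Bool) :
    (sB l = 1 ∧ (l.map fun b => if b then (-1 : K) else 1).prod = 1) ∨
      (sB l = -1 ∧ (l.map fun b => if b then (-1 : K) else 1).prod = -1) := by
  induction l with
  | nil => left; simp [sB]
  | cons b l ih =>
    rw [sB_cons, List.map_cons, List.prod_cons]
    rcases ih with ⟨h1, h2⟩ | ⟨h1, h2⟩ <;> rw [h1, h2] <;> cases b <;> simp

/-- the unit vector of a letter of the frame -/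
lemma ln_vec (h : F25 K σ ρ) (u : GU K n) (i : Fin n) :
    (lnU u (E1 i)).1 = vecMulVec (u.1 *ᵥ Pi.single i 1) (u.1 *ᵥ Pi.single i 1) := by
  have e0 : star (Pi.single i (1 : K) : Fin n → K) = Pi.single i 1 := by
    funext k
    rw [Pi.star_apply, h.st]
  rw [lnU_coe, E1_coe, ← vec_e1, mul_vecMulVec, vecMulVec_mul]
  congr 1
  rw [e0, f_star_eq h, vecMul_transpose]

lemma vec_dot (h : F25 K σ ρ) (u : GU K n) (i : Fin n) :
    (u.1 *ᵥ Pi.single i 1) ⬝ᵥ (u.1 *ᵥ Pi.single i (1 : K)) = 1 := by
  have h1 := star_gu u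
  rw [f_star_eq h] at h1
  rw [dotProduct_mulVec, vecMul_mulVec, h1]
  simp

/-- a form on the unit vector of a letter of the frame -/
lemma form_vec (h : F25 K σ ρ) (u s : GU K n) {d : Fin n → K} (hd : (cf h u s).1 = diagonal d)
    (i : Fin n) : s.1 *ᵥ (fun k => σ ((u.1 *ᵥ Pi.single i 1) k)) = d i • (u.1 *ᵥ Pi.single i 1) := by
  have e1 : (fun k => σ ((u.1 *ᵥ Pi.single i (1 : K)) k)) = (gmap σ (f_stc h) u).1 *ᵥ Pi.single i 1 := by
    funext k
    rw [mulVec_single_one, mulVec_single_one]
    rfl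
  have e2 : s.1 * (gmap σ (f_stc h) u).1 = u.1 * (cf h u s).1 := by
    have e6 : s * gmap σ (f_stc h) u = u * cf h u s := by
      rw [cf]
      simp only [← mul_assoc, mul_inv_cancel, one_mul]
    rw [← gu_mul, ← gu_mul, e6]
  rw [e1, mulVec_mulVec, e2, hd, ← mulVec_mulVec, diagonal_mulVec_single, mul_one]
  have e3 : (Pi.single i (d i) : Fin n → K) = d i • Pi.single i 1 := by
    rw [← Pi.single_smul]
    simp
  rw [e3, mulVec_smul]

/-- the types of the letters of a frame -/
lemma tau_eq (h : F25 K σ ρ) (u s : GU K n) {d : Fin n → K} (hd : (cf h u s).1 = diagonal d)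
    (hd1 : ∀ i, d i = 1 ∨ d i = -1) (i : Fin n) :
    tau σ s (lnU u (E1 i)) = decide (d i = -1) := by
  rw [tau]
  apply decide_eq_decide.2
  set x : Fin n → K := u.1 *ᵥ Pi.single i 1 with hx
  have hxx : x ⬝ᵥ x = 1 := vec_dot h u i
  have hx0 : x ≠ 0 := by
    intro h0
    rw [h0, dotProduct_zero] at hxx
    exact zero_ne_one hxx
  have hsx := form_vec h u s hd i
  rw [← hx] at hsx
  have hP := ln_vec h u i
  rw [← hx] at hP
  constructor
  · rintro ⟨e, he, hse⟩
    have h1 : vecMulVec x x = vecMulVec e e := by rw [← hP, he]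
    have h2 : e ⬝ᵥ e = 1 := by
      have h3 := congrArg trace h1
      rw [trace_vecMulVec, trace_vecMulVec, hxx] at h3
      exact h3.symm
    have h4 : e = (x ⬝ᵥ e) • x := by
      have h5 : vecMulVec e e *ᵥ e = (e ⬝ᵥ e) • e := by
        ext k
        simp [vecMulVec_mulVec, mul_comm]
      have h6 : vecMulVec x x *ᵥ e = (x ⬝ᵥ e) • x := by
        ext k
        simp [vecMulVec_mulVec, mul_comm]
      rw [h2, one_smul] at h5
      calc e = vecMulVec e e *ᵥ e := h5.symm
        _ = vecMulVec x x *ᵥ e := by rw [h1]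
        _ = _ := h6
    set c := x ⬝ᵥ e with hc
    have hc2 : c * c = 1 := by
      rw [h4, dotProduct_smul, smul_dotProduct, hxx] at h2
      simpa using h2
    have hσ : σ c = c := by
      rcases f_pm_of_sq h hc2 with h5 | h5 <;> rw [h5] <;> simp
    have h7 : s.1 *ᵥ (fun k => σ (e k)) = (c * d i) • x := by
      have h8 : (fun k => σ (e k)) = c • (fun k => σ (x k)) := by
        funext k
        rw [h4, Pi.smul_apply, Pi.smul_apply, smul_eq_mul, smul_eq_mul, map_mul, hσ]
      rw [h8, mulVec_smul, hsx, smul_smul]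
    rw [h7] at hse
    have h9 : (c * d i) • x = (-c) • x := by
      rw [hse]
      nth_rewrite 1 [h4]
      rw [neg_smul]
    have h10 : c * d i = -c := by
      obtain ⟨k, hk⟩ := Function.ne_iff.1 hx0
      have h11 := congrFun h9 k
      rw [Pi.smul_apply, Pi.smul_apply, smul_eq_mul, smul_eq_mul] at h11
      exact mul_right_cancel₀ hk h11
    calc d i = (c * c) * d i := by rw [hc2, one_mul]
      _ = c * (c * d i) := by ring
      _ = -1 := by rw [h10]; linear_combination -hc2
  · intro hdi
    refine ⟨x, hP, ?_⟩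
    rw [hsx, hdi, neg_one_smul]

lemma map_tau (h : F25 K σ ρ) (u s : GU K n) {d : Fin n → K} (hd : (cf h u s).1 = diagonal d)
    (hd1 : ∀ i, d i = 1 ∨ d i = -1) :
    ((w0 K n).map (lnU u)).map (tau σ s) = List.ofFn (fun i => decide (d i = -1)) := by
  rw [w0, List.map_ofFn, List.map_ofFn]
  congr 1
  funext i
  exact tau_eq h u s hd hd1 i

/-- the forms through a frame with given types -/
lemma forms (h : F25 K σ ρ) (u : GU K n) (l : List Bool) (hl : l.length = n) :
    ∃ s0 : GU K n, RF σ s0 ∧ s0.1.det = (l.map fun b => if b then (-1 : K) else 1).prod ∧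
      ∀ s : GU K n, ((w0 K n).map (lnU u) ∈ Ftw s σ ∧ ((w0 K n).map (lnU u)).map (tau σ s) = l) ↔
        s = s0 := by
  obtain ⟨b, rfl⟩ : ∃ b : Fin n → Bool, l = List.ofFn b := by
    refine ⟨fun i => l.get ⟨i, by rw [hl]; exact i.2⟩, ?_⟩
    apply List.ext_getElem
    · simp [hl]
    · intro i h1 h2
      simp
  set T : Finset (Fin n) := Finset.univ.filter (fun i => b i = true) with hT
  have hm1 := f_m1 h
  have hTd : ∀ i, (if i ∈ T then (-1 : K) else 1) = if b i then -1 else 1 := by
    intro i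
    simp [hT]
  have htc : (dT T : GU K n).1 = diagonal (fun i => if b i then (-1 : K) else 1) := by
    rw [dT_coe]
    congr 1
    funext i
    exact hTd i
  have hd1 : ∀ i, (if b i then (-1 : K) else 1) = 1 ∨ (if b i then (-1 : K) else 1) = -1 := by
    intro i
    cases b i <;> simp
  have htt : (dT T : GU K n) * dT T = 1 := by
    apply Subtype.ext
    rw [gu_mul, htc, diagonal_mul_diagonal]
    show _ = (1 : Matrix (Fin n) (Fin n) K)
    rw [← diagonal_one]
    congr 1
    funext i
    cases b i <;> simp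
  have htg : gmap σ (f_stc h) (dT T : GU K n) = dT T := by
    apply Subtype.ext
    rw [gmap_coe, htc, diagonal_map (map_zero σ)]
    congr 1
    funext i
    show σ (if b i then (-1 : K) else 1) = _
    cases b i <;> simp
  refine ⟨fm h u (dT T), ?_, ?_, fun s => ?_⟩
  · have h1 : fm h u (dT T) * gmap σ (f_stc h) (fm h u (dT T)) = 1 := by
      rw [fm, gmap_mul h, gmap_mul h, gmap_inv h, gmap_gmap h, htg]
      calc u * dT T * (gmap σ (f_stc h) u)⁻¹ * (gmap σ (f_stc h) u * dT T * u⁻¹) =
          u * (dT T * dT T) * u⁻¹ := by group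
        _ = 1 := by rw [htt]; group
    have h2 := congrArg Subtype.val h1
    rw [gu_mul, gmap_coe] at h2
    exact h2
  · rw [← det_cf h u, cf_fm, htc, det_diagonal, List.map_ofFn, List.prod_ofFn]
    rfl
  · constructor
    · rintro ⟨h1, h2⟩
      obtain ⟨d, hd, hd'⟩ := (mem_iff h u s).1 h1
      rw [map_tau h u s hd' hd] at h2
      have h3 : ∀ i, decide (d i = -1) = b i := fun i => congrFun (List.ofFn_injective h2) i
      have h4 : cf h u s = dT T := by
        apply Subtype.ext
        rw [hd', htc]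
        congr 1
        funext i
        have h5 := h3 i
        by_cases h6 : d i = -1
        · rw [decide_eq_true h6] at h5
          rw [← h5, h6]; simp
        · rw [decide_eq_false h6] at h5
          rw [← h5, (hd i).resolve_right h6]; simp
      rw [← fm_cf h u s, h4]
    · rintro rfl
      have h4 : (cf h u (fm h u (dT T))).1 = diagonal (fun i => if b i then (-1 : K) else 1) := by
        rw [cf_fm, htc]
      refine ⟨(mem_iff h u _).2 ⟨_, hd1, h4⟩, ?_⟩
      rw [map_tau h u _ h4 hd1]
      congr 1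
      funext i
      cases hb : b i
      · simp [hm1.symm]
      · simp

/-- the number of forms through a word with given types -/
theorem count (h : F25 K σ ρ) (w : List (Ln K n)) : ∃ c : ℕ, ∀ l : List Bool, l.length = w.length →
    ((Finset.univ.filter (fun s : GU K n => RF σ s ∧ s.1.det = 1 ∧ (Ftw s σ).Nonempty)).filter
      fun s => w ∈ Ftw s σ ∧ w.map (tau σ s) = l).card = if sB l = 1 then c else 0 := by
  by_cases hw : w ∈ Fr K n
  · obtain ⟨u, rfl⟩ := exists_lnU hw
    refine ⟨1, fun l hl => ?_⟩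
    have hl' : l.length = n := by
      rw [hl, List.length_map, w0, List.length_ofFn]
    obtain ⟨s0, h1, h2, h3⟩ := forms h u l hl'
    have h4 := (h3 s0).2 rfl
    rcases sB_prod (K := K) l with ⟨h5, h6⟩ | ⟨h5, h6⟩
    · rw [if_pos h5, Finset.card_eq_one]
      refine ⟨s0, ?_⟩
      ext s
      rw [Finset.mem_filter, h3, Finset.mem_filter, Finset.mem_singleton]
      constructor
      · exact fun h => h.2
      · rintro rfl
        exact ⟨⟨Finset.mem_univ _, h1, by rw [h2, h6], ⟨_, h4.1⟩⟩, rfl⟩
    · have h7 : sB l ≠ 1 := by rw [h5]; norm_num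
      rw [if_neg h7, Finset.card_eq_zero, Finset.filter_eq_empty_iff]
      intro s hs hs'
      rw [h3] at hs'
      subst hs'
      have h8 := (Finset.mem_filter.1 hs).2.2.1
      rw [h2, h6] at h8
      exact f_m1 h h8
  · refine ⟨0, fun l hl => ?_⟩
    rw [ite_self, Finset.card_eq_zero, Finset.filter_eq_empty_iff]
    intro s hs hs'
    exact hw (mem_Ftw.1 hs'.1).1

end

/-- **(B)** -/
theorem stmtB : StmtB.{u} := by
  intro K _ _ _ σ ρ h n hn w V _ _ M hM ℓ a
  exact T3_zf' hM ℓ a (kap ρ w) (tau σ)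
    (Finset.univ.filter (fun s : GU K n => RF σ s ∧ s.1.det = 1 ∧ (Ftw s σ).Nonempty))
    (fun s => Ftw s σ) (fun s w hw => by
      rw [((mem_Fr K).1 (mem_Ftw.1 hw).1).1]; exact hn) 1 (Or.inl rfl) (count h)

/-- **(B')** -/
theorem stmtB' : StmtB'.{u} := by
  intro K _ _ _ σ ρ h n s _ hdet hne
  exact mem_SOm_of h hdet hne

end

end Vale.Agent.P240.R2.H32.O25
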