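import Vale.Agent.P240.H138.O25Defs
import Vale.Agent.P240.R2.H829.EP3
import Vale.Agent.P240.R2.H584.Top

/-!
The top cycles in dimension `m + 1` for the group generated by `L` and an element that acts as the
last reflection, with a field automorphism of order `2`, from solutions with sum zero.
-/

set_option autoImplicit false
set_option linter.all false

namespace Vale.Agent.P240.R2.H32.N

open Matrix Vale.Agent.P240.R2.AS Vale.Agent.P240.R2.H38 Vale.Agent.P240.K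
open Vale.Agent.P240.R2.H938 (TD TC mem_TD Pack cjH mx_cjH)
open Vale.Agent.P240.R2.H296.O (SOm)
open Vale.Agent.P240.R2.H401.E
open Vale.Agent.P240.R2.H829.EP
open Vale.Agent.P240.R2.H986 (ev)
open Vale.Agent.P240.H138.O25 (RF SSol)
open scoped Classical

universe u v w

noncomputable section

section gen
variable {K : Type u} [Field K] [Fintype K] [StarRing K] {n : ℕ}

lemma SOL_mono {X : Type u} [Fintype X] {F F' : Finset (List X)} (h : F ⊆ F') :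
    AS.SOL F ≤ AS.SOL F' := fun z hz => ⟨fun w hw => hz.1 w fun h' => hw (h h'), hz.2⟩

lemma t_pos {σ : K ≃+* K} (h : SSol σ n) : 0 < AS.t (Ftw (1 : GU K n) σ) := by
  obtain ⟨W, z, hW, hz, hsum, h1, g, hg, hg'⟩ := h
  have h2 : (AS.SOL (Ftw (1 : GU K n) σ)).map (AS.bm (Ln K n)) ≠ ⊥ := by
    intro h0
    have h3 : AS.bm (Ln K n) (z 1) ∈ (AS.SOL (Ftw (1 : GU K n) σ)).map (AS.bm (Ln K n)) :=
      ⟨_, hz 1 h1, rfl⟩
    rw [h0, Submodule.mem_bot] at h3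
    exact hg (congrFun h3 g)
  rw [AS.t]
  have hfd : Module.Finite ℚ (AS.SOL (Ftw (1 : GU K n) σ)) := by
    let F := Ftw (1 : GU K n) σ
    let ρ : (List (Ln K n) → ℚ) →ₗ[ℚ] (F → ℚ) :=
      LinearMap.funLeft ℚ ℚ (Subtype.val : F → List (Ln K n))
    have hinj : Function.Injective (ρ.domRestrict (AS.SOL F)) := by
      rw [← LinearMap.ker_eq_bot, LinearMap.ker_eq_bot']
      intro z hz
      apply Subtype.ext
      ext x
      by_cases hx : x ∈ F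
      · exact congrFun hz ⟨x, hx⟩
      · exact z.2.1 x hx
    exact Module.Finite.of_injective _ hinj
  have hfd2 : Module.Finite ℚ ((AS.SOL (Ftw (1 : GU K n) σ)).map (AS.bm (Ln K n))) :=
    Module.Finite.map _ _
  rw [Module.finrank_pos_iff]
  exact (Submodule.nontrivial_iff_ne_bot).2 h2

variable {S : Subgroup (GU K n)} {ζ : K} {G : Type v} [Group G]

omit [Fintype K] in
/-- the action of `x` on the image -/
lemma acts_one {η : S →* G} {x : G} {σ : K ≃+* K} (hx : ActsS η x 1 σ)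
    (hfr : ∀ g ∈ S, gmap σ hx.1 g ∈ S) (k : S) :
    x * η k * x⁻¹ = η ⟨gmap σ hx.1 k.1, hfr k.1 k.2⟩ := by
  refine hx.2 _ _ ?_
  show (mx k).map σ = (1 : Matrix (Fin n) (Fin n) K) * (mx k).map σ *
    star (1 : Matrix (Fin n) (Fin n) K)
  rw [star_one, one_mul, mul_one]

omit [Fintype K] in
lemma sq_one {η : S →* G} {x : G} (hx2 : x ^ 2 = 1) {σ : K ≃+* K} (hx : ActsS η x 1 σ)
    (hfr : ∀ g ∈ S, gmap σ hx.1 g ∈ S) {s : S} (hs : RF σ s.1) : (η s * x) ^ 2 = 1 := by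
  have h1 := acts_one hx hfr s
  have h2 : s * ⟨gmap σ hx.1 s.1, hfr s.1 s.2⟩ = 1 := by
    apply mx_inj
    rw [mx_mul]
    exact hs
  have h3 : (η s * x) ^ 2 = η s * (x * η s * x⁻¹) * x ^ 2 := by
    rw [pow_two, pow_two]; group
  rw [h3, h1, ← map_mul, h2, map_one, hx2, one_mul]

variable [Finite G]

/-- **Top cycles from solutions with sum zero**, for a package. -/
theorem top_sum (𝕜 : Type w) [Field 𝕜] {η : S →* G} (hP : Pack 2 ζ S η)
    (hconj : ∀ u : GU K n, ∀ g ∈ S, u * g * u⁻¹ ∈ S)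
    {x : G} (hx2 : x ^ 2 = 1) (hxN : x ∉ η.range) {σ : K ≃+* K} (hx : ActsS η x 1 σ)
    (hfr : ∀ g ∈ S, gmap σ hx.1 g ∈ S) (hσ : σ ζ = ζ)
    (W : Finset S) (z : S → List (Ln K n) → ℚ) (hW : ∀ s ∈ W, RF σ s.1)
    (hz : ∀ s ∈ W, z s ∈ AS.SOL (Ftw s.1 σ)) (hsum : ∑ s ∈ W, z s = 0) (h1 : 1 ∈ W)
    {g : List (Ln K n)} (hg : ev (z 1) g [] [] ≠ 0)
    (hg' : ∀ s ∈ W, s ≠ 1 → (∃ a : K, mx s = a • (1 : Matrix (Fin n) (Fin n) K)) →
      ev (z s) g [] [] = 0) :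
    ∃ w ∈ Fr K n, ∃ y, y * x⁻¹ ∈ η.range ∧ y ^ 2 = 1 ∧
      (∀ a ∈ De (eS S ζ 1 η) w, y * a = a * y) ∧
      TC 𝕜 2 (η.range ⊔ Subgroup.zpowers x) (De (eS S ζ 1 η) w ⊔ Subgroup.zpowers y) := by
  set Y : Finset G := W.image fun s => η s * x with hY
  set Fy : G → Finset (List (Ln K n)) := fun y =>
    (W.filter fun s => η s * x = y).biUnion fun s => Ftw s.1 σ with hFy
  have hmem : ∀ {y : G} {w : List (Ln K n)}, w ∈ Fy y ↔ ∃ s ∈ W, η s * x = y ∧ w ∈ Ftw s.1 σ := by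
    intro y w
    rw [hFy]
    simp only [Finset.mem_biUnion, Finset.mem_filter]
    constructor
    · rintro ⟨s, ⟨h2, h3⟩, h4⟩
      exact ⟨s, h2, h3, h4⟩
    · rintro ⟨s, h2, h3, h4⟩
      exact ⟨s, ⟨h2, h3⟩, h4⟩
  have hd : H945.SemiData 2 (Fr K n) (eS S ζ 1 η) η.range (η.range ⊔ Subgroup.zpowers x) Y Fy := by
    have hYs : ∀ y ∈ Y, ∃ s ∈ W, y = η s * x := by
      intro y hy
      obtain ⟨s, hs, rfl⟩ := Finset.mem_image.1 hy
      exact ⟨s, hs, rfl⟩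
    refine ⟨fun u v h => ⟨_, rfl⟩, le_sup_left, fun y hy => ?_, fun y hy => ?_, fun y hy => ?_,
      fun y hy y' hy' => ?_, fun y hy w hw => ?_, fun y hy w hw w' hp => ?_, fun y hy u v h => ?_⟩
    · obtain ⟨s, hs, rfl⟩ := hYs y hy
      exact sq_one hx2 hx hfr (hW s hs)
    · obtain ⟨s, hs, rfl⟩ := hYs y hy
      exact Subgroup.mul_mem _ (Subgroup.mem_sup_left ⟨s, rfl⟩)
        (Subgroup.mem_sup_right (Subgroup.mem_zpowers x))
    · obtain ⟨s, hs, rfl⟩ := hYs y hy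
      intro h
      have h6 : η s ∈ η.range := ⟨s, rfl⟩
      exact hxN ((Subgroup.mul_mem_cancel_left _ h6).1 h)
    · obtain ⟨s, hs, rfl⟩ := hYs y hy
      obtain ⟨s', hs', rfl⟩ := hYs y' hy'
      have h2 : (η s * x)⁻¹ * (η s' * x) = x⁻¹ * η (s⁻¹ * s') * x := by
        rw [map_mul, map_inv]; group
      have h3 : x⁻¹ = x := by rw [inv_eq_iff_mul_eq_one, ← pow_two, hx2]
      have h5 : x⁻¹ * η (s⁻¹ * s') * x = x * η (s⁻¹ * s') * x⁻¹ := by rw [h3]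
      rw [h2, h5, acts_one hx hfr]
      exact ⟨_, rfl⟩
    · obtain ⟨s, hs, -, h2⟩ := hmem.1 hw
      exact Ftw_sub _ _ h2
    · obtain ⟨s, hs, h2, h3⟩ := hmem.1 hw
      exact hmem.2 ⟨s, hs, h2, Ftw_perm _ _ _ h3 _ hp⟩
    · obtain ⟨s, hs, rfl, h3⟩ := hmem.1 h
      have h4 := mem_Ftw.1 h3
      have h5 := acts_mul_in hconj hx hfr s
      rw [mul_one] at h5
      exact (hP.comm_lit h5 hσ (List.pairwise_append.1 ((mem_Fr K).1 h4.1).2).1 fun P hP' =>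
        h4.2 P (List.mem_append_left _ hP')).symm
  set z' : G → List (Ln K n) → ℚ := fun y => ∑ s ∈ W.filter (fun s => η s * x = y), z s with hz'
  have hne : AS.bm (Ln K n) (z' x) ≠ 0 := by
    intro h0
    apply hg
    have h2 : ev (z' x) g [] [] = 0 := congrFun h0 g
    have h3 : AS.bm (Ln K n) (z' x) g =
        ∑ s ∈ W.filter (fun s => η s * x = x), AS.bm (Ln K n) (z s) g := by
      rw [hz', map_sum, Finset.sum_apply]
    have h4 : ∑ s ∈ W.filter (fun s => η s * x = x), AS.bm (Ln K n) (z s) g =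
        AS.bm (Ln K n) (z 1) g := by
      refine Finset.sum_eq_single_of_mem 1 (by simp [h1]) fun s hs hs1 => ?_
      obtain ⟨h5, h6⟩ := Finset.mem_filter.1 hs
      refine hg' s h5 hs1 (hP.ker s ?_)
      exact mul_eq_right.1 h6
    show AS.bm (Ln K n) (z 1) g = 0
    rw [← h4, ← h3]
    exact h2
  obtain ⟨y, hy, w, hw, α, l, h4, h5⟩ := H584.top_of_sum hP.hm hP.comb hd z'
    (fun y hy => by
      refine Submodule.sum_mem _ fun s hs => ?_
      obtain ⟨h5, h6⟩ := Finset.mem_filter.1 hs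
      exact SOL_mono (fun w hw => hmem.2 ⟨s, h5, h6, hw⟩) (hz s h5))
    (by
      rw [← hsum]
      exact Finset.sum_fiberwise_of_maps_to (fun s hs => Finset.mem_image_of_mem _ hs) z)
    (y₀ := x) (Finset.mem_image.2 ⟨1, h1, by rw [map_one, one_mul]⟩) hne 𝕜
  obtain ⟨s, hs, h2, h3⟩ := hmem.1 hw
  subst h2
  refine ⟨w, Ftw_sub _ _ h3, η s * x, ?_, sq_one hx2 hx hfr (hW s hs), fun a ha => ?_, α, l, ?_⟩
  · rw [mul_inv_cancel_right]
    exact ⟨s, rfl⟩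
  · have h7 : De (eS S ζ 1 η) w ≤ Subgroup.centralizer ({η s * x} : Set G) := by
      rw [De, Subgroup.closure_le]
      rintro _ ⟨u, v, h, rfl⟩
      rw [SetLike.mem_coe, Subgroup.mem_centralizer_singleton_iff]
      exact hd.fix _ hy u v (h ▸ hw)
    exact (Subgroup.mem_centralizer_singleton_iff.1 (h7 ha)).symm
  · rw [sup_comm (Subgroup.zpowers (η s * x))] at h4
    exact h4

end gen

section
variable {K : Type u} [Field K] [Fintype K] [StarRing K] {m : ℕ} {G : Type v} [Group G] [Finite G]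
variable {L : Subgroup G} {ε : SOm K (m + 1) →* G} {e : G}

/-- **T3** from `SSol` -/
theorem t3 (𝕜 : Type w) [Field 𝕜] (h : P2 L ε e) {σ : K ≃+* K} (hSol : SSol σ (m + 1)) {x : G}
    (hxe : x * e = e * x) (hx2 : x ^ 2 = 1) (hxM : x ∉ L ⊔ Subgroup.zpowers e)
    (hx : ActsS ε x 1 σ) :
    ∃ w ∈ Fr K (m + 1), ∃ y, y * x⁻¹ ∈ L ⊔ Subgroup.zpowers e ∧ y ^ 2 = 1 ∧
      (∀ a ∈ De (eS (S1 K m) (-1) 1 h.hom) w, y * a = a * y) ∧
      TC 𝕜 2 (L ⊔ Subgroup.zpowers e ⊔ Subgroup.zpowers x)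
        (De (eS (S1 K m) (-1) 1 h.hom) w ⊔ Subgroup.zpowers y) := by
  have hA : ActsS h.hom x 1 σ := h.acts hx hxe (by rw [one_mul, mul_one])
  obtain ⟨W, z, hW, hz, hsum, h1, g, hg, hg'⟩ := hSol
  have hinj : Function.Injective (Subtype.val : S1 K m → GU K (m + 1)) := Subtype.val_injective
  set W' : Finset (S1 K m) := W.preimage Subtype.val hinj.injOn with hW'
  have hm : ∀ {s : S1 K m}, s ∈ W' ↔ s.1 ∈ W := fun {s} => by rw [hW', Finset.mem_preimage]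
  have hrng : h.hom.range = L ⊔ Subgroup.zpowers e := h.range_hom
  have key := top_sum 𝕜 h.pack S1_conj hx2 (by rw [hrng]; exact hxM) hA (S1_gmap hA.1)
    (by rw [map_neg, map_one]) W' (fun s => z s.1) (fun s hs => (hW _ (hm.1 hs)).2)
    (fun s hs => hz _ (hm.1 hs)) (by
      rw [← hsum, hW']
      refine Finset.sum_preimage _ _ hinj.injOn z fun s hs hs' => ?_
      exact absurd ⟨⟨s, SOm_le_S1 (hW s hs).1⟩, rfl⟩ hs')
    (hm.2 h1) hg (fun s hs hs1 ha => hg' s.1 (hm.1 hs) (fun h => hs1 (Subtype.ext h)) ha)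
  rw [hrng] at key
  exact key

/-- **(O25-n)**: `StmtEII`, second and third part, for `s = 1`, from `SSol` -/
theorem eII (hE : ENum K m) (hε : EHom L ε) (𝕜 : Type w) [Field 𝕜] (he2 : e ^ 2 = 1) (heL : e ∉ L)
    (he : ActsS ε e (sla K m) (RingEquiv.refl K)) {σ : K ≃+* K} (hSol : SSol σ (m + 1)) :
    (∀ x : G, x * e = e * x → ActsS ε x 1 σ →
      ∃ (u : GU K (m + 1)) (e' : G), e' * e⁻¹ ∈ L ∧ e' ^ 2 = 1 ∧ (∀ a ∈ Ae ε u, e' * a = a * e') ∧
        (∀ a ∈ Ae ε u, x * a = a * x) ∧ x * e' = e' * x ∧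
        TC 𝕜 2 ((L ⊔ Subgroup.zpowers e) ⊓ Subgroup.centralizer ({x} : Set G))
          (Ae ε u ⊔ Subgroup.zpowers e')) ∧
    (∀ x : G, x * e = e * x → x ^ 2 = 1 → x ∉ L ⊔ Subgroup.zpowers e → ActsS ε x 1 σ →
      ∃ (u : GU K (m + 1)) (e' x' : G), e' * e⁻¹ ∈ L ∧ x' * x⁻¹ ∈ L ⊔ Subgroup.zpowers e ∧
        e' ^ 2 = 1 ∧ x' ^ 2 = 1 ∧ (∀ a ∈ Ae ε u, e' * a = a * e') ∧
        (∀ a ∈ Ae ε u, x' * a = a * x') ∧ e' * x' = x' * e' ∧
        TC 𝕜 2 (L ⊔ Subgroup.zpowers e ⊔ Subgroup.zpowers x)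
          (Ae ε u ⊔ Subgroup.zpowers e' ⊔ Subgroup.zpowers x')) := by
  have h2 : (2 : K) ≠ 0 := H221.two_ne hE.odd
  have h : P2 L ε e := ⟨hE.st, h2, hE.modd, hε.range, hε.ker, he2, he, heL⟩
  refine ⟨?_, ?_⟩
  · intro x hxe hx
    have hA : ActsS h.hom x 1 σ := h.acts hx hxe (by rw [one_mul, mul_one])
    obtain ⟨w, hw, hwc, hT⟩ := h.pack.t2 𝕜 hA (by rw [map_neg, map_one]) (F := Ftw 1 σ)
      (Ftw_sub 1 σ) (Ftw_perm 1 σ) (fun w hw P hP => (mem_Ftw.1 hw).2 P hP) (t_pos hSol)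
    obtain ⟨u, e', e1, e3, e4, e5⟩ := h.De_eq hw
    rw [e5, h.range_hom] at hT
    rw [e5] at hwc
    exact ⟨u, e', e1, e3, e4, fun a ha => hwc a (Subgroup.mem_sup_left ha),
      hwc e' (Subgroup.mem_sup_right (Subgroup.mem_zpowers e')), hT⟩
  · intro x hxe hx2 hxM hx
    obtain ⟨w, hw, y, y1, y2, y3, hT⟩ := t3 𝕜 h hSol hxe hx2 hxM hx
    obtain ⟨u, e', e1, e3, e4, e5⟩ := h.De_eq hw
    rw [e5] at hT y3
    exact ⟨u, e', y, e1, y1, e3, y2, e4, fun a ha => y3 a (Subgroup.mem_sup_left ha),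
      (y3 e' (Subgroup.mem_sup_right (Subgroup.mem_zpowers e'))).symm, hT⟩

end

end

end Vale.Agent.P240.R2.H32.N
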