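import Vale.Agent.P240.H138.O25Defs
import Vale.Agent.P240.R2.H296.ORef
import Vale.Agent.P240.R2.H38.V2

/-!
Real forms through a frame (|K| = 25, trivial star): the forms of a frame are the sign vectors, the
sum over the forms of discriminant `1` vanishes, and they lie in `SOm`.
-/

set_option autoImplicit false
set_option linter.all false

namespace Vale.Agent.P240.R2.H32.O25

open Matrix Vale.Agent.P240.R2.AS Vale.Agent.P240.R2.H38 Vale.Agent.P240.R2.H584
open Vale.Agent.P240.R2.H401.E (Ftw)
open Vale.Agent.P240.R2.H296.O (SOm mem_SOm ab ab_rf ab_gmap)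
open Vale.Agent.P240.R2.H387 (hf)
open Vale.Agent.P240.H138.O25
open scoped Classical

universe u v w

noncomputable section

section
variable {K : Type u} [Field K] [StarRing K] {n : ℕ}

/-- the diagonal matrix with entries `-1` on `T`, as a unitary matrix -/
def dT (T : Finset (Fin n)) : GU K n :=
  ⟨diagonal (fun i => if i ∈ T then -1 else 1), by
    rw [mem_unitaryGroup_iff, star_eq_conjTranspose, diagonal_conjTranspose, diagonal_mul_diagonal,
      ← diagonal_one]
    congr 1
    funext i
    by_cases hi : i ∈ T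
    · simp [hi]
    · simp [hi]⟩

lemma dT_coe (T : Finset (Fin n)) : (dT T : GU K n).1 = diagonal (fun i => if i ∈ T then -1 else 1) :=
  rfl

lemma single_hf (i : Fin n) : hf (Pi.single i (1 : K) : Fin n → K) (Pi.single i 1) = 1 := by
  rw [H296.O.hf_std, if_pos rfl]

lemma rf_single (i : Fin n) : H296.O.rf (Pi.single i (1 : K) : Fin n → K) = dT {i} := by
  apply Subtype.ext
  ext a b
  have h0 : hf (Pi.single i (1 : K) : Fin n → K) (Pi.single i 1) ≠ 0 := by
    rw [single_hf]; exact one_ne_zero
  have h1 : (H296.O.rf (Pi.single i (1 : K) : Fin n → K)).1 a b =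
      ((H296.O.rf (Pi.single i (1 : K) : Fin n → K)).1 *ᵥ Pi.single b 1) a := by
    rw [mulVec_single_one]; rfl
  rw [h1, H296.O.rf_mulVec h0, single_hf, H296.O.hf_std, dT_coe, diagonal_apply]
  by_cases hib : i = b
  · subst hib
    by_cases hai : a = i
    · subst hai
      simp
      norm_num
    · simp [hai]
  · by_cases hab : a = b
    · subst hab
      have : a ≠ i := fun h => hib h.symm
      simp [hib, this]
    · simp [hib, hab]

lemma dT_insert {i : Fin n} {T : Finset (Fin n)} (hi : i ∉ T) :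
    (dT (insert i T) : GU K n) = dT {i} * dT T := by
  apply Subtype.ext
  rw [gu_mul, dT_coe, dT_coe, dT_coe, diagonal_mul_diagonal]
  congr 1
  funext k
  by_cases hk : k = i
  · subst hk
    simp [hi]
  · simp [hk]

lemma dT_empty : (dT ∅ : GU K n) = 1 := by
  apply Subtype.ext
  rw [dT_coe]
  simp

lemma exists_c (hs : ∀ x : K, star x = x) (h2 : (2 : K) ≠ 0) :
    ∃ c : Abelianization (PGU K n), c * c = 1 ∧ ∀ T : Finset (Fin n), ab K n (dT T) = c ^ T.card := by
  rcases Nat.eq_zero_or_pos n with h | h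
  · subst h
    refine ⟨1, one_mul 1, fun T => ?_⟩
    have : T = ∅ := by
      ext i
      exact i.elim0
    rw [this, dT_empty, map_one, one_pow]
  · let i0 : Fin n := ⟨0, h⟩
    have hc : ∀ i : Fin n, ab K n (dT {i}) = ab K n (dT {i0}) := by
      intro i
      rw [← rf_single, ← rf_single]
      exact ab_rf hs h2 (by rw [single_hf, single_hf]) (by rw [single_hf]; exact one_ne_zero)
    refine ⟨ab K n (dT {i0}), ?_, fun T => ?_⟩
    · rw [← map_mul]
      have : (dT {i0} : GU K n) * dT {i0} = 1 := by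
        apply Subtype.ext
        rw [gu_mul, dT_coe, diagonal_mul_diagonal]
        show _ = (1 : Matrix (Fin n) (Fin n) K)
        rw [← diagonal_one]
        congr 1
        funext k
        by_cases hk : k = i0
        · simp [hk]
        · simp [hk]
      rw [this, map_one]
    · induction T using Finset.induction_on with
      | empty => rw [dT_empty, map_one, Finset.card_empty, pow_zero]
      | insert i T hi ih =>
        rw [dT_insert hi, map_mul, ih, hc, Finset.card_insert_of_notMem hi, pow_succ, mul_comm]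

/-- diagonal matrices with entries `±1` and determinant `1` -/
theorem diag_ab (hs : ∀ x : K, star x = x) (h2 : (2 : K) ≠ 0) {d : Fin n → K}
    (hd : ∀ i, d i = 1 ∨ d i = -1) (hp : ∏ i, d i = 1) {g : GU K n} (hg : g.1 = diagonal d) :
    ab K n g = 1 := by
  set T : Finset (Fin n) := Finset.univ.filter (fun i => d i = -1) with hT
  have hm1 : (-1 : K) ≠ 1 := by
    intro h
    apply h2
    linear_combination -h
  have hdT : d = fun i => if i ∈ T then (-1 : K) else 1 := by
    funext i
    by_cases h : d i = -1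
    · rw [if_pos (by rw [hT, Finset.mem_filter]; exact ⟨Finset.mem_univ _, h⟩), h]
    · rw [if_neg (by rw [hT, Finset.mem_filter]; exact fun h' => h h'.2)]
      exact (hd i).resolve_right h
  have hgT : g = dT T := by
    apply Subtype.ext
    rw [hg, dT_coe, ← hdT]
  obtain ⟨c, hc, h1⟩ := exists_c (K := K) (n := n) hs h2
  rw [hgT, h1]
  have h3 : ∏ i, d i = (-1 : K) ^ T.card := by
    rw [hdT, Finset.prod_ite, Finset.prod_const, Finset.prod_const_one, mul_one]
    congr 2
    ext i
    simp
  rw [h3] at hp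
  have h4 : Even T.card := by
    by_contra h
    rw [Nat.not_even_iff_odd] at h
    rw [h.neg_one_pow] at hp
    exact hm1 hp
  obtain ⟨k, hk⟩ := h4
  rw [hk, ← two_mul, pow_mul, pow_two, hc, one_pow]

/-- the letters of the standard frame -/
lemma mem_w0 {P : Ln K n} : P ∈ w0 K n ↔ ∃ i, E1 i = P := by
  rw [w0, List.mem_ofFn]

/-- matrices that commute with the standard projections -/
lemma diag_of_comm {M : Matrix (Fin n) (Fin n) K}
    (h : ∀ i : Fin n, M * (E1 i : Ln K n).1 = (E1 i : Ln K n).1 * M) : M = diagonal (fun i => M i i) := by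
  ext a b
  by_cases hab : a = b
  · subst hab
    rw [diagonal_apply_eq]
  · rw [diagonal_apply_ne _ hab]
    have h1 := congrFun (congrFun (h b) a) b
    rw [E1_coe, mul_diagonal, diagonal_mul, if_pos rfl, if_neg hab, mul_one, zero_mul] at h1
    exact h1

end

section
variable {K : Type u} [Field K] [Fintype K] [StarRing K] {n : ℕ}

lemma mem_Ftw {s : GU K n} {σ : K ≃+* K} {w : List (Ln K n)} :
    w ∈ Ftw s σ ↔ w ∈ Fr K n ∧ ∀ P ∈ w, s.1 * P.1.map σ * star s.1 = P.1 := by
  rw [Ftw, Finset.mem_filter]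

variable {σ : K ≃+* K} {ρ : K}

section
variable (h : F25 K σ ρ)
include h

lemma f_odd : Odd (Nat.card K) := by rw [h.card]; decide

lemma f_two : (2 : K) ≠ 0 := H221.two_ne (f_odd h)

lemma f_m1 : (-1 : K) ≠ 1 := by
  intro h1
  apply (f_two h)
  linear_combination -h1

lemma f_stc : ∀ x, σ (star x) = star (σ x) := fun x => by rw [h.st, h.st]

lemma f_ss (x : K) : σ (σ x) = x := by
  rw [h.sg, h.sg, ← pow_mul]
  have h1 := FiniteField.pow_card x
  rw [← Nat.card_eq_fintype_card, h.card] at h1
  exact h1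

lemma f_star_eq (M : Matrix (Fin n) (Fin n) K) : star M = Mᵀ := by
  ext i j
  rw [star_apply, h.st, transpose_apply]

lemma f_map_map (M : Matrix (Fin n) (Fin n) K) : (M.map σ).map σ = M := by
  ext i j
  exact (f_ss h) _

lemma f_pm_of_sq {x : K} (hx : x * x = 1) : x = 1 ∨ x = -1 := by
  have h1 : (x - 1) * (x + 1) = 0 := by linear_combination hx
  rcases mul_eq_zero.1 h1 with h2 | h2
  · exact Or.inl (sub_eq_zero.1 h2)
  · exact Or.inr (eq_neg_of_add_eq_zero_left h2)

end


/-- the form of the frame `u` with signs `d` -/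
def fm (h : F25 K σ ρ) (u t : GU K n) : GU K n := u * t * (gmap σ (f_stc h) u)⁻¹

/-- the matrix of a form in the coordinates of the frame `u` -/
def cf (h : F25 K σ ρ) (u s : GU K n) : GU K n := u⁻¹ * s * gmap σ (f_stc h) u

lemma fm_cf (h : F25 K σ ρ) (u s : GU K n) : fm h u (cf h u s) = s := by
  rw [fm, cf]; group

lemma cf_fm (h : F25 K σ ρ) (u t : GU K n) : cf h u (fm h u t) = t := by
  rw [fm, cf]; group

lemma gmap_mul (h : F25 K σ ρ) (x y : GU K n) :
    gmap σ (f_stc h) (x * y) = gmap σ (f_stc h) x * gmap σ (f_stc h) y := by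
  apply Subtype.ext
  rw [gmap_coe, gu_mul, gu_mul, gmap_coe, gmap_coe, Matrix.map_mul]

lemma gmap_one (h : F25 K σ ρ) : gmap σ (f_stc h) (1 : GU K n) = 1 := by
  apply Subtype.ext
  rw [gmap_coe]
  exact Matrix.map_one σ (map_zero σ) (map_one σ)

lemma gmap_inv (h : F25 K σ ρ) (x : GU K n) : gmap σ (f_stc h) x⁻¹ = (gmap σ (f_stc h) x)⁻¹ := by
  rw [eq_inv_iff_mul_eq_one, ← gmap_mul h, inv_mul_cancel, gmap_one h]

lemma gmap_gmap (h : F25 K σ ρ) (x : GU K n) : gmap σ (f_stc h) (gmap σ (f_stc h) x) = x := by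
  apply Subtype.ext
  rw [gmap_coe, gmap_coe, (f_map_map h)]

/-- fixed letters in the coordinates of the frame -/
lemma fix_iff (h : F25 K σ ρ) (u s : GU K n) (i : Fin n) :
    s.1 * (lnU u (E1 i)).1.map σ * star s.1 = (lnU u (E1 i)).1 ↔
      (cf h u s).1 * (E1 i : Ln K n).1 = (E1 i : Ln K n).1 * (cf h u s).1 := by
  have e0 : ((E1 i : Ln K n).1).map σ = (E1 i : Ln K n).1 := by
    rw [E1_coe, diagonal_map (map_zero σ)]
    congr 1
    funext k
    split_ifs <;> simp
  have e1 : s.1 * (lnU u (E1 i)).1.map σ * star s.1 =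
      u.1 * ((cf h u s).1 * (E1 i : Ln K n).1 * star (cf h u s).1) * star u.1 := by
    have e2 : s = u * cf h u s * (gmap σ (f_stc h) u)⁻¹ := (fm_cf h u s).symm
    have e3 : (lnU u (E1 i)).1.map σ = (gmap σ (f_stc h) u).1 * (E1 i : Ln K n).1 *
        star (gmap σ (f_stc h) u).1 := by
      rw [lnU_coe, Matrix.map_mul, Matrix.map_mul, e0, gmap_coe]
      congr 1
      ext a b
      simp only [map_apply, star_apply]
      exact (f_stc h) _
    rw [e3]
    set U := gmap σ (f_stc h) u
    have e4 : s.1 * U.1 = u.1 * (cf h u s).1 := by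
      have e6 : s * U = u * cf h u s := by
        rw [cf]
        simp only [← mul_assoc, mul_inv_cancel, one_mul]
        rfl
      rw [← gu_mul, ← gu_mul, e6]
    have e5 : star U.1 * star s.1 = star (cf h u s).1 * star u.1 := by
      rw [← star_mul, e4, star_mul]
    calc s.1 * (U.1 * (E1 i : Ln K n).1 * star U.1) * star s.1 =
        (s.1 * U.1) * (E1 i : Ln K n).1 * (star U.1 * star s.1) := by simp only [mul_assoc]
      _ = _ := by rw [e4, e5]; simp only [mul_assoc]
  rw [e1, lnU_coe]
  constructor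
  · intro h1
    have h2 := conj_inj u h1
    have h3 := congrArg (fun M => M * (cf h u s).1) h2
    simp only [mul_assoc] at h3
    rw [star_gu, mul_one] at h3
    exact h3
  · intro h1
    rw [h1, mul_assoc (E1 i : Ln K n).1, gu_star, mul_one]

/-- the frame `u` is fixed by `s` iff the form is diagonal -/
lemma mem_iff (h : F25 K σ ρ) (u s : GU K n) :
    (w0 K n).map (lnU u) ∈ Ftw s σ ↔ ∃ d : Fin n → K, (∀ i, d i = 1 ∨ d i = -1) ∧
      (cf h u s).1 = diagonal d := by
  rw [mem_Ftw]
  constructor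
  · rintro ⟨-, h1⟩
    have h2 : (cf h u s).1 = diagonal (fun i => (cf h u s).1 i i) := diag_of_comm fun i =>
      (fix_iff h u s i).1 (h1 _ (List.mem_map_of_mem (mem_w0.2 ⟨i, rfl⟩)))
    refine ⟨_, fun i => ?_, h2⟩
    apply f_pm_of_sq h
    have h3 := gu_star (cf h u s)
    rw [h2, star_eq_conjTranspose, diagonal_conjTranspose, diagonal_mul_diagonal] at h3
    have h4 := congrFun (congrFun h3 i) i
    rw [diagonal_apply_eq, one_apply_eq, Pi.star_apply, h.st] at h4
    exact h4
  · rintro ⟨d, -, hd⟩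
    refine ⟨?_, fun P hP => ?_⟩
    · rw [mem_Fr_map]
      exact w0_mem
    · obtain ⟨Q, hQ, rfl⟩ := List.mem_map.1 hP
      obtain ⟨i, rfl⟩ := mem_w0.1 hQ
      rw [fix_iff h, hd, E1_coe, diagonal_mul_diagonal, diagonal_mul_diagonal]
      congr 1
      funext k
      exact mul_comm _ _

lemma det_cf (h : F25 K σ ρ) (u s : GU K n) : (cf h u s).1.det = s.1.det := by
  have h1 : u.1.det * u.1.det = 1 := by
    have h2 := congrArg det (gu_star u)
    rw [det_mul, (f_star_eq h), det_transpose, det_one] at h2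
    exact h2
  have h3 : (gmap σ (f_stc h) u).1.det = u.1.det := by
    rw [gmap_coe]
    have h4 : (u.1.map σ).det = σ u.1.det := by
      rw [← RingEquiv.mapMatrix_apply]
      exact (RingEquiv.map_det σ u.1).symm
    rw [h4]
    rcases f_pm_of_sq h h1 with h5 | h5 <;> rw [h5] <;> simp
  rw [cf, gu_mul, gu_mul, gu_inv, det_mul, det_mul, h3, (f_star_eq h), det_transpose]
  linear_combination s.1.det * h1

/-- **(B')** -/
theorem mem_SOm_of (h : F25 K σ ρ) {s : GU K n} (hdet : s.1.det = 1)
    (hne : (Ftw s σ).Nonempty) : s ∈ SOm K n := by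
  obtain ⟨w, hw⟩ := hne
  obtain ⟨u, rfl⟩ := exists_lnU (mem_Ftw.1 hw).1
  obtain ⟨d, hd, hd'⟩ := (mem_iff h u s).1 hw
  rw [mem_SOm, ← fm_cf h u s, fm, map_mul, map_mul, map_inv,
    ab_gmap h.st (f_two h) (q := 5) (by decide) σ h.sg (f_stc h),
    diag_ab h.st (f_two h) hd (by rw [← det_diagonal, ← hd', det_cf, hdet]) hd']
  rw [mul_one, mul_inv_cancel]

end

end

end Vale.Agent.P240.R2.H32.O25
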